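import Vale.Agent.P339.Hard

namespace Vale.Agent.Results.P339.Full

open Vale.Agent.Lib.PCP Vale.Agent.P339N

/-- Khot's 2-to-1 games conjecture with perfect completeness: for every `δ` there is `q` such that
it is NP-hard to tell 2-to-1 games with alphabets of sizes `2 q` and `q` of value `1` from those
of value at most `δ`. -/
theorem result (δ : ℝ) (hδ : 0 < δ) (_hδ1 : δ < 1) :
    ∃ q : ℕ, 2 ≤ q ∧ ∃ red : CNF3 → Game, PolyTime red ∧ ∀ φ, (red φ).TwoToOne q ∧
      (Sat φ → (red φ).Perfect q) ∧ (¬ Sat φ → (red φ).ValLe q δ) :=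
  Vale.Agent.P339.hard hδ

end Vale.Agent.Results.P339.Full
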