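import Vale.Agent.P339N.Red

namespace Vale.Agent.Results.P339.NineTenths

open Vale.Agent.Lib.PCP Vale.Agent.P339N

/-- 2-to-1 games with alphabets of sizes six and three: it is NP-hard to tell value `1` from
value at most `9 / 10 + ε`. -/
theorem result (ε : ℝ) (hε : 0 < ε) :
    ∃ red : CNF3 → Game, PolyTime red ∧ ∀ φ, (red φ).TwoToOne 3 ∧
      (Sat φ → (red φ).Perfect 3) ∧ (¬ Sat φ → (red φ).ValLe 3 (9 / 10 + ε)) :=
  hard hε

end Vale.Agent.Results.P339.NineTenths
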